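import Vale.Agent.P011.D4.Oct

/-!
Block D4Z (helper67): a reflection of an octonion algebra has no companions.
-/

namespace Vale.Agent.P011.D4Z.H67

open Vale.Agent.P011.MPQ Vale.Agent.P011.D4 Vale.Agent.P011.D4.Oct

variable {F : Type} [Field F] {a b c : Fˣ}

/-- An element which commutes with all elements is a scalar. -/
theorem eq_smul_one (h2 : (2 : F) ≠ 0) {l : Oct a b c} (h : ∀ x : Oct a b c, l * x = x * l) :
    l = l.fst.re • (1 : Oct a b c) := by
  have ha : (a : F) ≠ 0 := a.ne_zero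
  have hz : ∀ x : F, -x = x → x = 0 := fun x hx => by
    have h1 : (2 : F) * x = 0 := by linear_combination -hx
    exact (mul_eq_zero.1 h1).resolve_left h2
  have hy : ∀ x : F, x = -x → x = 0 := fun x hx => hz x hx.symm
  have h1 := h ⟨⟨0, 1, 0, 0⟩, 0⟩
  have h3 := h ⟨⟨0, 0, 1, 0⟩, 0⟩
  have e1 := congrArg (fun x : Oct a b c => x.fst.imJ) h1
  have e2 := congrArg (fun x : Oct a b c => x.fst.imK) h1
  have e3 := congrArg (fun x : Oct a b c => x.snd.re) h1
  have e4 := congrArg (fun x : Oct a b c => x.snd.imI) h1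
  have e5 := congrArg (fun x : Oct a b c => x.snd.imJ) h1
  have e6 := congrArg (fun x : Oct a b c => x.snd.imK) h1
  have f2 := congrArg (fun x : Oct a b c => x.fst.imK) h3
  simp at e1 e2 e3 e4 e5 e6 f2
  have g1 := (mul_eq_zero.1 (hz _ e1)).resolve_left ha
  have g2 := hz _ e2
  have g3 := (mul_eq_zero.1 (hz _ e3)).resolve_left ha
  have g4 := hz _ e4
  have g5 := (mul_eq_zero.1 (hy _ e5)).resolve_left ha
  have g6 := hy _ e6
  have g7 := hy _ f2
  apply ext8 <;> simp [g1, g2, g3, g4, g5, g6, g7]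

/-- The opposite multiplication is not isotopic to the multiplication. -/
theorem no_swap (h2 : (2 : F) ≠ 0) (L M : Oct a b c → Oct a b c)
    (h : ∀ x y, y * x = L x * M y) : False := by
  have hn : norm (L 1) * norm (M 1) = 1 := by
    rw [← Oct.norm_mul, ← h, one_mul, Oct.norm_one]
  have hl : norm (L 1) ≠ 0 := left_ne_zero_of_mul_eq_one hn
  have hm : norm (M 1) ≠ 0 := right_ne_zero_of_mul_eq_one hn
  have e1 : ∀ y, norm (L 1) • M y = star (L 1) * y := fun y => by
    rw [← star_mul_mul, ← h, mul_one]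
  have e2 : ∀ x, norm (M 1) • L x = x * star (M 1) := fun x => by
    rw [← mul_mul_star, ← h, one_mul]
  have e3 : star (M 1) = norm (M 1) • L 1 := by rw [e2, one_mul]
  have e4 : ∀ x, L x = x * L 1 := fun x => by
    have h1 := e2 x
    rw [e3, mul_smul_oct] at h1
    exact smul_right_injective _ hm h1
  have e5 : ∀ x, L 1 * x = x * L 1 := fun x => by
    have h1 := h x (L 1)
    have h3 : M (L 1) = 1 := by
      have h4 := e1 (L 1)
      rw [star_mul_self] at h4
      exact smul_right_injective _ hl h4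
    rw [h1, h3, mul_one, e4]
  have e6 := eq_smul_one h2 e5
  obtain ⟨t, ht⟩ : ∃ t : F, L 1 = t • (1 : Oct a b c) := ⟨_, e6⟩
  have ht0 : t ≠ 0 := by
    rintro rfl
    rw [ht, zero_smul, Oct.norm_zero] at hl
    exact hl rfl
  have e7 : ∀ y, M y = t⁻¹ • y := fun y => by
    have h1 := h 1 y
    rw [mul_one, ht, smul_mul_oct, one_mul] at h1
    conv_rhs => rw [h1]
    rw [smul_smul, inv_mul_cancel₀ ht0, one_smul]
  have e8 : ∀ x y : Oct a b c, y * x = x * y := fun x y => by
    rw [h, e4, e7, ht, mul_smul_oct, mul_smul_oct, mul_one, smul_mul_oct, smul_smul,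
      inv_mul_cancel₀ ht0, one_smul]
  have e9 := congrArg (fun x : Oct a b c => x.fst.imK)
    (e8 ⟨⟨0, 1, 0, 0⟩, 0⟩ ⟨⟨0, 0, 1, 0⟩, 0⟩)
  simp at e9
  apply h2
  linear_combination -e9

/-- The improper isometry `x ↦ e (star x) e / N(e)` has no companions. -/
theorem no_refl (h2 : (2 : F) ≠ 0) {e : Oct a b c} (he : norm e ≠ 0)
    (U V : Oct a b c → Oct a b c)
    (h : ∀ u v, U u * V v = (norm e)⁻¹ • ((e * star (u * v)) * e)) : False := by
  have : NeZero (2 : F) := ⟨h2⟩
  refine no_swap h2 (a := a) (b := b) (c := c) (fun x => norm e • U ((norm e)⁻¹ • (e * star x)))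
    (fun y => V ((norm e)⁻¹ • (star y * e))) fun x y => ?_
  have h1 := h ((norm e)⁻¹ • (e * star x)) ((norm e)⁻¹ • (star y * e))
  have h3 : star ((norm e)⁻¹ • (star y * e)) = (norm e)⁻¹ • (star e * y) := by
    rw [star_smul_oct, star_mul, star_star]
  have h4 : star ((norm e)⁻¹ • (e * star x)) = (norm e)⁻¹ • (x * star e) := by
    rw [star_smul_oct, star_mul, star_star]
  have h5 : e * ((norm e)⁻¹ • (star e * y)) = y := by
    rw [mul_smul_oct, mul_star_mul, smul_smul, inv_mul_cancel₀ he, one_smul]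
  have h6 : ((norm e)⁻¹ • (x * star e)) * e = x := by
    rw [smul_mul_oct, mul_star_mul', smul_smul, inv_mul_cancel₀ he, one_smul]
  have h7 : (e * star (((norm e)⁻¹ • (e * star x)) * ((norm e)⁻¹ • (star y * e)))) * e =
      y * x := by
    rw [star_mul (((norm e)⁻¹ • (e * star x)) : Oct a b c), ← moufang, h3, h4, h5, h6]
  rw [h7] at h1
  rw [smul_mul_oct, h1, smul_smul, mul_inv_cancel₀ he, one_smul]

/-- A map with companions is not a reflection. -/
theorem not_refl (h2 : (2 : F) ≠ 0) {e : Oct a b c} (he : norm e ≠ 0)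
    {G U V : Oct a b c → Oct a b c} (h : ∀ u v, G (u * v) = U u * V v)
    (hG : ∀ x, G x = x - (bil x e / norm e) • e) : False := by
  refine no_refl h2 he (fun u => -U u) V fun u v => ?_
  have h1 : ∀ w : Oct a b c, (e * star w) * e = bil w e • e - norm e • w := fun w => by
    rw [flex, mul_mul_eq, star_star, bil_comm]
  have h3 : -U u * V v = -(U u * V v) := by
    rw [← neg_one_smul F (U u), smul_mul_oct, neg_one_smul]
  rw [h3, ← h, hG, h1, smul_sub, smul_smul, smul_smul, inv_mul_cancel₀ he, one_smul, neg_sub,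
    div_eq_inv_mul]

end Vale.Agent.P011.D4Z.H67
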