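import Vale.Agent.P011.D4Z.Defs
import Vale.Agent.P011.D4Z.H67.Improper

/-!
Block D4Z (helper67): the improper diagonal matrices do not occur.
-/

namespace Vale.Agent.P011.D4Z.H67

open Vale.Agent.P011.MPQ Vale.Agent.P011.D4 Vale.Agent.P011.D4.Oct Vale.Agent.P011.D4X

variable {k : Type} [Field k] [Algebra k ℂ] {a b c : kˣ}

theorem norm_basis {e : Fin 8 → OctL ℂ a b c}
    (he : ∀ i j, bil (e i) (e j) = if i = j then (if i = 0 ∨ i = 1 then 2 else -2) else 0)
    (m : Fin 8) : Oct.norm (e m) = if m = 0 ∨ m = 1 then 1 else -1 := by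
  have h1 := he m m
  rw [bil_self, if_pos rfl] at h1
  have h2 : (2 : ℂ) ≠ 0 := two_ne_zero
  split_ifs with h
  · rw [if_pos h] at h1
    linear_combination h1 / 2
  · rw [if_neg h] at h1
    linear_combination h1 / 2

/-- A map which changes the sign of one basis vector has no companions. -/
theorem one_sign {e : Fin 8 → OctL ℂ a b c}
    (he : ∀ i j, bil (e i) (e j) = if i = j then (if i = 0 ∨ i = 1 then 2 else -2) else 0)
    (hsp : ∀ y : OctL ℂ a b c, ∃ v : Fin 8 → ℂ, y = ∑ i, v i • e i)
    (G : OctL ℂ a b c →ₗ[ℂ] OctL ℂ a b c) {U V : OctL ℂ a b c → OctL ℂ a b c}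
    (h : ∀ u v, G (u * v) = U u * V v) (m : Fin 8)
    (hm : ∀ j, G (e j) = if j = m then -e j else e j) : False := by
  have hn := norm_basis he m
  have hn0 : Oct.norm (e m) ≠ 0 := by
    rw [hn]
    split_ifs
    · exact one_ne_zero
    · exact neg_ne_zero.2 one_ne_zero
  refine not_refl two_ne_zero hn0 h fun x => ?_
  obtain ⟨v, rfl⟩ := hsp x
  have hb : bil (∑ i, v i • e i) (e m) = v m * (2 * Oct.norm (e m)) := by
    have h1 : ∀ s : Finset (Fin 8), bil (∑ i ∈ s, v i • e i) (e m) =
        ∑ i ∈ s, v i * bil (e i) (e m) := by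
      intro s
      induction s using Finset.induction_on with
      | empty => rw [Finset.sum_empty, Finset.sum_empty, bil_zero_left]
      | insert i s hi ih =>
        rw [Finset.sum_insert hi, Finset.sum_insert hi, bil_add_left, bil_smul_left, ih]
    rw [h1, Finset.sum_eq_single m, bil_self]
    · intro i _ hi
      rw [he, if_neg hi, mul_zero]
    · intro h3
      exact absurd (Finset.mem_univ m) h3
  have hb2 : v m * (2 * Oct.norm (e m)) / Oct.norm (e m) = v m * 2 := by
    rw [← mul_assoc, mul_div_cancel_right₀ _ hn0]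
  rw [hb, hb2, map_sum]
  have h4 : ∀ i, G (v i • e i) = v i • e i - (if i = m then (v m * 2) • e m else 0) := by
    intro i
    rw [map_smul, hm]
    by_cases hi : i = m
    · subst hi
      rw [if_pos rfl, if_pos rfl, smul_neg, mul_smul, two_smul, smul_add]
      abel
    · rw [if_neg hi, if_neg hi, sub_zero]
  rw [Finset.sum_congr rfl fun i _ => h4 i, Finset.sum_sub_distrib, Finset.sum_ite_eq']
  simp

/-- The improper cases of the elimination. -/
theorem signs_eq {e : Fin 8 → OctL ℂ a b c}
    (he : ∀ i j, bil (e i) (e j) = if i = j then (if i = 0 ∨ i = 1 then 2 else -2) else 0)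
    (hsp : ∀ y : OctL ℂ a b c, ∃ v : Fin 8 → ℂ, y = ∑ i, v i • e i)
    (G G' G'' : OctL ℂ a b c →ₗ[ℂ] OctL ℂ a b c)
    (htri : ∀ x y, G (star x * star y) = star (G' x) * star (G'' y)) {s t : ℝ}
    (hs : s = 1 ∨ s = -1) (ht : t = 1 ∨ t = -1)
    (hG : ∀ j, G (e j) = ((![1, s, t, 1, 1, 1, 1, 1] j : ℝ) : ℂ) • e j) : s = t := by
  have h : ∀ u v, G (u * v) = (fun u => star (G' (star u))) u * (fun v => star (G'' (star v))) v :=
    fun u v => by
      have h1 := htri (star u) (star v)
      rwa [star_star, star_star] at h1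
  rcases hs with rfl | rfl <;> rcases ht with rfl | rfl
  · rfl
  · refine (one_sign he hsp G h 2 fun j => ?_).elim
    rw [hG]
    fin_cases j <;> simp
  · refine (one_sign he hsp G h 1 fun j => ?_).elim
    rw [hG]
    fin_cases j <;> simp
  · rfl

end Vale.Agent.P011.D4Z.H67
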